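import Vale.Agent.P052.R2.H958.Near

namespace Vale.Agent.P052.R2.H958

open Finset Metric

variable {V : Type*} [NormedAddCommGroup V] [InnerProductSpace ℝ V]
variable {ι : Type*} [Fintype ι] [DecidableEq ι]

/-- continuous barycentric coordinates with respect to a regular simplex -/
theorem exists_bary [FiniteDimensional ℝ V] {s : ι → V} {D : ℝ} (hD : 0 < D)
    (hcard : Fintype.card ι = Module.finrank ℝ V + 1)
    (hs : ∀ i j, i ≠ j → dist (s i) (s j) = D) :
    ∃ β : V → ι → ℝ, Continuous β ∧ (∀ x, ∑ j, β x j = 1) ∧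
      (∀ x y, dist x y ^ 2 = D ^ 2 / 2 * ∑ j, (β x j - β y j) ^ 2) ∧
      (∀ x j, dist x (s j) ^ 2 = D ^ 2 / 2 * (∑ k, β x k ^ 2 - 2 * β x j + 1)) := by
  have hai := affineIndependent_of_regular hD hs
  have htop := (hai.affineSpan_eq_top_iff_card_eq_finrank_add_one).2 hcard
  set b : AffineBasis ι ℝ V := ⟨s, hai, htop⟩ with hb
  have hsum : ∀ x, ∑ j, b.coord j x = 1 := fun x => b.sum_coord_apply_eq_one x
  have hself : ∀ x, x = Finset.univ.affineCombination ℝ s (fun j => b.coord j x) := fun x =>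
    (b.affineCombination_coord_eq_self x).symm
  refine ⟨fun x j => b.coord j x, ?_, hsum, ?_, ?_⟩
  · exact continuous_pi fun j => (b.coord j).continuous_of_finiteDimensional
  · intro x y
    have h := dist_sq hs (hsum x) (hsum y)
    rw [← hself x, ← hself y] at h
    exact h
  · intro x j
    have h1 : s j = Finset.univ.affineCombination ℝ s (Pi.single j (1 : ℝ)) :=
      (Finset.affineCombination_piSingle ℝ _ s (Finset.mem_univ j)).symm
    have h2 : ∑ k, (Pi.single j (1 : ℝ) : ι → ℝ) k = 1 := by simp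
    have h3 := dist_sq hs (hsum x) h2
    rw [← h1, ← hself x] at h3
    rw [h3]
    congr 1
    have h4 : ∀ k, (b.coord k x - (Pi.single j (1 : ℝ) : ι → ℝ) k) ^ 2
        = b.coord k x ^ 2 + (if k = j then (1 - 2 * b.coord j x) else 0) := by
      intro k
      by_cases hk : k = j
      · subst hk
        rw [Pi.single_eq_same, if_pos rfl]
        ring
      · rw [Pi.single_eq_of_ne hk, if_neg hk]
        ring
    rw [Finset.sum_congr rfl fun k _ => h4 k, Finset.sum_add_distrib]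
    simp
    ring

/-- the eight-dimensional case from the statement in coordinates -/
theorem eight_of_core
    (core : ∀ K : Set (Fin 9 → ℝ), IsCompact K → (∀ y ∈ K, ∑ j, y j = 1 ∧ ∀ i, ∑ j, y j ^ 2 ≤ 1 + 2 * y i) →
      (∀ y ∈ K, ∀ z ∈ K, ∑ j, (y j - z j) ^ 2 ≤ 2) →
      ∃ P : Fin 9 → Set (Fin 9 → ℝ), (∀ i, IsClosed (P i)) ∧ K ⊆ ⋃ i, P i ∧
        ∀ i, ∀ y ∈ P i ∩ K, ∀ z ∈ P i ∩ K, ∑ j, (y j - z j) ^ 2 < 2)
    (X : Set (EuclideanSpace ℝ (Fin 8))) (hX : Bornology.IsBounded X)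
    (hD : 0 < Metric.diam X) (t : Fin 9 → EuclideanSpace ℝ (Fin 8))
    (hx : ∀ x ∈ X, ∀ a, dist x (t a) ≤ Metric.diam X)
    (hd : ∀ a b, a ≠ b → dist (t a) (t b) = Metric.diam X) :
    ∃ P : Fin 9 → Set (EuclideanSpace ℝ (Fin 8)),
      (⋃ i, P i) = X ∧ ∀ i, diam (P i) < diam X := by
  obtain ⟨β, hβc, hβ1, hβd, hβv⟩ := exists_bary (V := EuclideanSpace ℝ (Fin 8)) (s := t) hD
    (by simp) hd
  set D := diam X with hDd
  have hD2 : 0 < D ^ 2 := by positivity
  have hcl : IsCompact (closure X) := hX.isCompact_closure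
  have hcd : ∀ x ∈ closure X, ∀ y ∈ closure X, dist x y ≤ D := by
    intro x hx y hy
    rw [hDd, ← Metric.diam_closure]
    exact dist_le_diam_of_mem hX.closure hx hy
  have hxt : ∀ x ∈ closure X, ∀ a, dist x (t a) ≤ D := by
    intro x hxc a
    have hc : IsClosed {x | dist x (t a) ≤ D} := isClosed_le (by fun_prop) (by fun_prop)
    exact closure_minimal (fun x hx' => hx x hx' a) hc hxc
  have hle : ∀ {r : ℝ} {x y : EuclideanSpace ℝ (Fin 8)}, dist x y ≤ D →
      dist x y ^ 2 = D ^ 2 / 2 * r → r ≤ 2 := by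
    intro r x y h1 h2
    have h3 : dist x y ^ 2 ≤ D ^ 2 := by
      have h0 : 0 ≤ dist x y := dist_nonneg
      nlinarith
    rw [h2] at h3
    nlinarith
  obtain ⟨P, hPc, hPK, hPd⟩ := core (β '' closure X) (hcl.image hβc) (by
      rintro _ ⟨x, hxc, rfl⟩
      refine ⟨hβ1 x, fun i => ?_⟩
      have := hle (hxt x hxc i) (hβv x i)
      linarith) (by
      rintro _ ⟨x, hxc, rfl⟩ _ ⟨y, hyc, rfl⟩
      exact hle (hcd x hxc y hyc) (hβd x y))
  set Q : Fin 9 → Set (EuclideanSpace ℝ (Fin 8)) := fun i => closure X ∩ β ⁻¹' (P i) with hQ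
  have hQc : ∀ i, IsCompact (Q i) := fun i => hcl.inter_right ((hPc i).preimage hβc)
  have hQd : ∀ i, diam (Q i) < D := by
    intro i
    apply diam_lt_of_compact (hQc i) hD
    rintro x ⟨hxc, hxP⟩ y ⟨hyc, hyP⟩
    have h1 := hPd i (β x) ⟨hxP, Set.mem_image_of_mem β hxc⟩ (β y)
      ⟨hyP, Set.mem_image_of_mem β hyc⟩
    have h2 : dist x y ^ 2 < D ^ 2 := by
      rw [hβd x y]
      nlinarith
    nlinarith [dist_nonneg (x := x) (y := y)]
  refine ⟨fun i => X ∩ Q i, ?_, fun i => ?_⟩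
  · rw [← Set.inter_iUnion]
    refine Set.inter_eq_left.2 fun x hxX => ?_
    have := hPK (Set.mem_image_of_mem β (subset_closure hxX))
    obtain ⟨i, hi⟩ := Set.mem_iUnion.1 this
    exact Set.mem_iUnion.2 ⟨i, subset_closure hxX, hi⟩
  · exact lt_of_le_of_lt (diam_mono Set.inter_subset_right (hQc i).isBounded) (hQd i)

end Vale.Agent.P052.R2.H958
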