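import Vale.Agent.P052.R2.H958.Main

namespace Vale.Agent.P052.R2.H958

open Finset Metric
open scoped RealInnerProductSpace

variable {V : Type*} [NormedAddCommGroup V] [InnerProductSpace ℝ V]
variable {ι : Type*} [Fintype ι]

theorem var_identity (l : ι → ℝ) (hl : ∑ i, l i = 1) (t : ι → V) :
    ∑ i, ∑ j, l i * l j * dist (t i) (t j) ^ 2
      = 2 * (∑ i, l i * ‖t i‖ ^ 2 - ‖∑ i, l i • t i‖ ^ 2) := by
  have hin : ‖∑ i, l i • t i‖ ^ 2 = ∑ i, ∑ j, l i * l j * ⟪t i, t j⟫ := by
    rw [← real_inner_self_eq_norm_sq, sum_inner]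
    refine Finset.sum_congr rfl fun i _ => ?_
    rw [inner_sum]
    refine Finset.sum_congr rfl fun j _ => ?_
    rw [real_inner_smul_left, real_inner_smul_right]
    ring
  have h1 : ∀ i, ∑ j, l i * l j * dist (t i) (t j) ^ 2
      = l i * ‖t i‖ ^ 2 - 2 * ∑ j, l i * l j * ⟪t i, t j⟫ + l i * ∑ j, l j * ‖t j‖ ^ 2 := by
    intro i
    have h2 : ∀ j, l i * l j * dist (t i) (t j) ^ 2
        = l i * ‖t i‖ ^ 2 * l j - 2 * (l i * l j * ⟪t i, t j⟫) + l i * (l j * ‖t j‖ ^ 2) := by
      intro j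
      rw [dist_eq_norm, norm_sub_sq_real]
      ring
    rw [Finset.sum_congr rfl fun j _ => h2 j, Finset.sum_add_distrib, Finset.sum_sub_distrib,
      ← Finset.mul_sum, ← Finset.mul_sum, ← Finset.mul_sum, hl, mul_one]
  rw [Finset.sum_congr rfl fun i _ => h1 i, Finset.sum_add_distrib, Finset.sum_sub_distrib,
    ← Finset.mul_sum, ← Finset.sum_mul, hl, hin]
  ring

/-- the centre of a maximal weight -/
theorem exists_weight [Nonempty ι] (t : ι → V) :
    ∃ l ∈ stdSimplex ℝ ι, ∀ j, ‖t j - ∑ i, l i • t i‖ ^ 2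
      ≤ ∑ i, l i * ‖t i‖ ^ 2 - ‖∑ i, l i • t i‖ ^ 2 := by
  classical
  obtain ⟨l, hl, hmax⟩ := (isCompact_stdSimplex ℝ ι).exists_isMaxOn
    (f := fun l : ι → ℝ => ∑ i, l i * ‖t i‖ ^ 2 - ‖∑ i, l i • t i‖ ^ 2)
    ⟨Pi.single (Classical.arbitrary ι) 1, single_mem_stdSimplex ℝ _⟩ (by fun_prop)
  refine ⟨l, hl, fun j => ?_⟩
  set c := ∑ i, l i • t i with hc
  set g := ∑ i, l i * ‖t i‖ ^ 2 - ‖c‖ ^ 2 with hg
  have key : ∀ s : ℝ, 0 < s → s ≤ 1 → (1 - s) * ‖t j - c‖ ^ 2 ≤ g := by
    intro s hs0 hs1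
    have hmem : (1 - s) • l + s • (Pi.single j (1 : ℝ) : ι → ℝ) ∈ stdSimplex ℝ ι :=
      (convex_stdSimplex ℝ ι) hl (single_mem_stdSimplex ℝ j) (by linarith) hs0.le (by ring)
    have h1 := hmax hmem
    simp only [Set.mem_ofPred_eq] at h1
    have e1 : ∑ i, ((1 - s) • l + s • (Pi.single j (1 : ℝ) : ι → ℝ)) i * ‖t i‖ ^ 2
        = (1 - s) * ∑ i, l i * ‖t i‖ ^ 2 + s * ‖t j‖ ^ 2 := by
      have : ∀ i, ((1 - s) • l + s • (Pi.single j (1 : ℝ) : ι → ℝ)) i * ‖t i‖ ^ 2
          = (1 - s) * (l i * ‖t i‖ ^ 2) + (if i = j then s * ‖t j‖ ^ 2 else 0) := by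
        intro i
        by_cases hij : i = j
        · subst hij
          simp
          ring
        · simp [hij]
          ring
      rw [Finset.sum_congr rfl fun i _ => this i, Finset.sum_add_distrib, ← Finset.mul_sum]
      simp
    have e2 : ∑ i, ((1 - s) • l + s • (Pi.single j (1 : ℝ) : ι → ℝ)) i • t i
        = (1 - s) • c + s • t j := by
      have : ∀ i, ((1 - s) • l + s • (Pi.single j (1 : ℝ) : ι → ℝ)) i • t i
          = (1 - s) • (l i • t i) + (if i = j then s • t j else 0) := by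
        intro i
        by_cases hij : i = j
        · subst hij
          simp [add_smul, mul_smul]
        · simp [hij, mul_smul]
      rw [Finset.sum_congr rfl fun i _ => this i, Finset.sum_add_distrib, ← Finset.smul_sum]
      simp [hc]
    rw [e1, e2] at h1
    have e3 : ‖(1 - s) • c + s • t j‖ ^ 2
        = (1 - s) * ‖c‖ ^ 2 + s * ‖t j‖ ^ 2 - s * (1 - s) * ‖t j - c‖ ^ 2 := by
      rw [norm_add_sq_real, norm_sub_sq_real, norm_smul, norm_smul, real_inner_smul_left,
        real_inner_smul_right, mul_pow, mul_pow, Real.norm_eq_abs, Real.norm_eq_abs, sq_abs,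
        sq_abs, real_inner_comm c (t j)]
      ring
    rw [e3] at h1
    have h2 : s * ((1 - s) * ‖t j - c‖ ^ 2) ≤ s * g := by
      rw [hg]
      nlinarith
    exact le_of_mul_le_mul_left h2 hs0
  have hlim : Filter.Tendsto (fun n : ℕ => (1 - 1 / ((n : ℝ) + 1)) * ‖t j - c‖ ^ 2)
      Filter.atTop (nhds ((1 - 0) * ‖t j - c‖ ^ 2)) :=
    (tendsto_const_nhds.sub tendsto_one_div_add_atTop_nhds_zero_nat).mul_const _
  rw [sub_zero, one_mul] at hlim
  exact le_of_tendsto hlim (Filter.Eventually.of_forall fun n => key _ (by positivity) (by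
    rw [div_le_one (by positivity)]
    linarith [(Nat.cast_nonneg n : (0 : ℝ) ≤ n)]))

/-- points with distances at most one, two of them nearer, lie in a smaller ball -/
theorem small_ball [DecidableEq ι] (t : ι → V) (ht : ∀ i j, dist (t i) (t j) ≤ 1) {η : ℝ}
    (hη0 : 0 ≤ η) (hη1 : η ≤ 1) {a b : ι} (hab : a ≠ b) (h : dist (t a) (t b) ^ 2 ≤ 1 - η) :
    ∃ c : V, ∀ j, ‖t j - c‖ ^ 2 ≤ 1 / 2 * (1 - 1 / (Fintype.card ι : ℝ))
      - η / (8 * (Fintype.card ι : ℝ) ^ 2) := by
  have : Nonempty ι := ⟨a⟩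
  set N : ℝ := (Fintype.card ι : ℝ) with hN
  have hN1 : 1 ≤ N := by
    rw [hN]
    exact_mod_cast (Fintype.card_pos_iff.2 ⟨a⟩)
  have hconst : ∀ c : ℝ, ∑ _k : ι, c = N * c := fun c => by
    rw [Finset.sum_const, Finset.card_univ, nsmul_eq_mul]
  obtain ⟨l, ⟨hl0, hl1⟩, hc⟩ := exists_weight t
  refine ⟨∑ i, l i • t i, fun j => (hc j).trans ?_⟩
  have hv := var_identity l hl1 t
  -- upper bound of the double sum
  have h1 : ∑ i, ∑ j, l i * l j * dist (t i) (t j) ^ 2
      ≤ ∑ i, ∑ j, (l i * l j - (if i = j then l i * l j else 0)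
        - (if i = a then (if j = b then η * (l a * l b) else 0) else 0)) := by
    refine Finset.sum_le_sum fun i _ => Finset.sum_le_sum fun j _ => ?_
    have hij : 0 ≤ l i * l j := mul_nonneg (hl0 i) (hl0 j)
    have hd : dist (t i) (t j) ^ 2 ≤ 1 := by
      have h0 : 0 ≤ dist (t i) (t j) := dist_nonneg
      nlinarith [ht i j]
    by_cases hia : i = a
    · by_cases hjb : j = b
      · subst hia hjb
        rw [if_neg hab, if_pos rfl, if_pos rfl]
        nlinarith
      · rw [if_pos hia, if_neg hjb]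
        by_cases he : i = j
        · subst he
          simp
        · rw [if_neg he]
          nlinarith
    · rw [if_neg hia]
      by_cases he : i = j
      · subst he
        simp
      · rw [if_neg he]
        nlinarith
  have h2 : ∑ i, ∑ j, (l i * l j - (if i = j then l i * l j else 0)
        - (if i = a then (if j = b then η * (l a * l b) else 0) else 0))
      = 1 - ∑ i, l i ^ 2 - η * (l a * l b) := by
    simp only [Finset.sum_sub_distrib]
    have e1 : ∑ i, ∑ j, l i * l j = 1 := by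
      rw [← Finset.sum_mul_sum, hl1, one_mul]
    have e2 : ∑ i, ∑ j, (if i = j then l i * l j else 0) = ∑ i, l i ^ 2 := by
      refine Finset.sum_congr rfl fun i _ => ?_
      rw [Finset.sum_ite_eq]
      simp [pow_two]
    have e3 : ∑ i, ∑ j, (if i = a then (if j = b then η * (l a * l b) else 0) else 0)
        = η * (l a * l b) := by
      rw [Finset.sum_eq_single a]
      · simp
      · intro i _ hi
        simp [hi]
      · intro h
        exact absurd (Finset.mem_univ a) h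
    rw [e1, e2, e3]
  have hNi : N * (1 / N) = 1 := by field_simp
  have h3 : 1 / N + (l a - 1 / N) ^ 2 + (l b - 1 / N) ^ 2 ≤ ∑ i, l i ^ 2 := by
    have e : ∑ i, (l i - 1 / N) ^ 2 = ∑ i, l i ^ 2 - 1 / N := by
      have : ∀ i, (l i - 1 / N) ^ 2 = l i ^ 2 - 2 * (1 / N) * l i + (1 / N) ^ 2 :=
        fun i => by ring
      rw [Finset.sum_congr rfl fun i _ => this i, Finset.sum_add_distrib,
        Finset.sum_sub_distrib, ← Finset.mul_sum, hl1, hconst]
      have : N * (1 / N) ^ 2 = 1 / N := by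
        rw [pow_two, ← mul_assoc, hNi, one_mul]
      rw [this]
      ring
    have e' : (l a - 1 / N) ^ 2 + (l b - 1 / N) ^ 2 ≤ ∑ i, (l i - 1 / N) ^ 2 := by
      have := Finset.sum_le_sum_of_subset_of_nonneg (f := fun i => (l i - 1 / N) ^ 2)
        (Finset.subset_univ ({a, b} : Finset ι)) (fun i _ _ => sq_nonneg _)
      rwa [Finset.sum_pair hab] at this
    linarith
  have h4 : η / (4 * N ^ 2) ≤ (l a - 1 / N) ^ 2 + (l b - 1 / N) ^ 2 + η * (l a * l b) := by
    set r : ℝ := 1 / N with hr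
    have hr0 : 0 < r := by positivity
    have e : η / (4 * N ^ 2) = η * (r / 2) ^ 2 := by
      rw [hr]
      field_simp
      ring
    rw [e]
    have hla := hl0 a
    have hlb := hl0 b
    have hprod : 0 ≤ η * (l a * l b) := mul_nonneg hη0 (mul_nonneg hla hlb)
    rcases le_or_gt (r / 2) (l a) with ha | ha
    · rcases le_or_gt (r / 2) (l b) with hb | hb
      · have : (r / 2) ^ 2 ≤ l a * l b := by nlinarith
        have := mul_le_mul_of_nonneg_left this hη0
        nlinarith [sq_nonneg (l a - r), sq_nonneg (l b - r)]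
      · have : (r / 2) ^ 2 ≤ (l b - r) ^ 2 := by nlinarith
        nlinarith [sq_nonneg (l a - r), sq_nonneg (r / 2)]
    · have : (r / 2) ^ 2 ≤ (l a - r) ^ 2 := by nlinarith
      nlinarith [sq_nonneg (l b - r), sq_nonneg (r / 2)]
  have h5 : η / (8 * N ^ 2) = η / (4 * N ^ 2) / 2 := by
    field_simp
    ring
  rw [h5]
  linarith

end Vale.Agent.P052.R2.H958
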