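import Vale.Agent.P052.R2.H958.Near

namespace Vale.Agent.P052.R2.H958

open Metric

/-- clause (1): almost regular simplices, dimension at most `7` -/
theorem simplex_near (d : ℕ) (hd : d ≤ 7) :
    ∃ ε : ℝ, 0 < ε ∧ ∀ X : Set (EuclideanSpace ℝ (Fin d)), Bornology.IsBounded X →
      0 < diam X → ∀ v : Fin (d + 1) → EuclideanSpace ℝ (Fin d),
        (∀ a b, a ≠ b → (1 - ε) * diam X ≤ dist (v a) (v b)) →
        (∀ a b, dist (v a) (v b) ≤ (1 + ε) * diam X) →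
        (∀ x ∈ X, ∀ a, dist x (v a) ≤ (1 + ε) * diam X) →
        ∃ P : Fin (d + 1) → Set (EuclideanSpace ℝ (Fin d)),
          (⋃ i, P i) = X ∧ ∀ i, diam (P i) < diam X := by
  have h1 : Fintype.card (Fin (d + 1)) = Module.finrank ℝ (EuclideanSpace ℝ (Fin d)) + 1 := by
    simp
  have h2 : Fintype.card (Fin (d + 1)) ≤ 8 := by
    rw [Fintype.card_fin]
    omega
  obtain ⟨ε, hε, h⟩ := near_simplex (V := EuclideanSpace ℝ (Fin d)) (ι := Fin (d + 1)) h1 h2
  exact ⟨ε, hε, fun X hX hD v hv1 hv2 hv3 => h X hX hD v hv1 hv2 hv3⟩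

end Vale.Agent.P052.R2.H958
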