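import Mathlib

namespace Vale.Agent.P052.R2.H958

open Finset

/-- the numerical core: `A = sqrt (m m')`, `B = sqrt ((1-m)(1-m'))` -/
theorem core_num {N A B y z : ℝ} (hN : N ≤ 8) (hA : 0 ≤ A) (hB : 0 ≤ B)
    (hAB : A + B ≤ 1) (h0 : 1 ≤ N * A ^ 2) (hy : 1 ≤ y) (hz : 1 ≤ z)
    (h1 : y + z ≤ N * B ^ 2)
    (h2 : 3 ≤ (y - 1) ^ 2 + (z - 1) ^ 2 + N * (B ^ 2 - A ^ 2) ^ 2) : False := by
  have hA2 : 1 / 8 ≤ A ^ 2 := by nlinarith [sq_nonneg A]
  have hAl : 0.353 ≤ A := by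
    by_contra h
    push Not at h
    nlinarith
  have hBu : B ≤ 0.647 := by linarith
  have hs : y + z ≤ 3.35 := by nlinarith [sq_nonneg B]
  have hB2 : 1 / 4 ≤ B ^ 2 := by nlinarith [sq_nonneg B]
  have hBl : 1 / 2 ≤ B := by
    by_contra h
    push Not at h
    nlinarith
  have hAu : A ≤ 1 / 2 := by linarith
  have hd0 : 0 ≤ B ^ 2 - A ^ 2 := by nlinarith
  have hd1 : B ^ 2 - A ^ 2 ≤ 0.295 := by
    have : B ^ 2 - A ^ 2 = (B - A) * (B + A) := by ring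
    rw [this]
    nlinarith
  have hd2 : (B ^ 2 - A ^ 2) ^ 2 ≤ 0.0871 := by nlinarith
  have hd3 : N * (B ^ 2 - A ^ 2) ^ 2 ≤ 0.6968 := by nlinarith [sq_nonneg (B ^ 2 - A ^ 2)]
  have hyz : (y - 1) ^ 2 + (z - 1) ^ 2 ≤ 1.8225 := by nlinarith
  linarith

/-- the same with `m`, `m'` -/
theorem core_mm {N m m' y z : ℝ} (hN : N ≤ 8) (hm : 0 ≤ m) (hm' : 0 ≤ m')
    (hm1 : m ≤ 1) (hm1' : m' ≤ 1) (h0 : 1 ≤ N * (m * m')) (hy : 1 ≤ y) (hz : 1 ≤ z)
    (h1 : y + z ≤ N * ((1 - m) * (1 - m')))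
    (h2 : 3 ≤ (y - 1) ^ 2 + (z - 1) ^ 2 + N * (1 - m - m') ^ 2) : False := by
  have hA2 : Real.sqrt (m * m') ^ 2 = m * m' := Real.sq_sqrt (mul_nonneg hm hm')
  have hB2 : Real.sqrt ((1 - m) * (1 - m')) ^ 2 = (1 - m) * (1 - m') :=
    Real.sq_sqrt (mul_nonneg (by linarith) (by linarith))
  have e1 : Real.sqrt (m * m') ≤ (m + m') / 2 := by
    apply Real.sqrt_le_iff.2
    constructor
    · linarith
    · nlinarith [sq_nonneg (m - m')]
  have e2 : Real.sqrt ((1 - m) * (1 - m')) ≤ ((1 - m) + (1 - m')) / 2 := by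
    apply Real.sqrt_le_iff.2
    constructor
    · linarith
    · nlinarith [sq_nonneg (m - m')]
  refine core_num (A := Real.sqrt (m * m')) (B := Real.sqrt ((1 - m) * (1 - m'))) hN
    (Real.sqrt_nonneg _) (Real.sqrt_nonneg _) (by linarith) (by rw [hA2]; exact h0) hy hz
    (by rw [hB2]; exact h1) ?_
  rw [hA2, hB2]
  have : (1 - m) * (1 - m') - m * m' = 1 - m - m' := by ring
  rw [this]
  exact h2

/-- the core inequality in homogeneous form -/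
theorem core_bc {N b c p q : ℝ} (hN : N ≤ 8) (hb0 : 0 < b) (hb1 : b ≤ 1)
    (hc0 : 0 < c) (hc1 : c ≤ 1) (hp : 0 ≤ p) (hq : 0 ≤ q) (hpb : p ≤ b) (hqc : q ≤ c)
    (h0 : b * c ≤ N * p * q) (h1 : b + c ≤ N * (b - p) * (c - q))
    (h2 : 3 ≤ (1 / b - 1) ^ 2 + (1 / c - 1) ^ 2 + N * (1 - p / b - q / c) ^ 2) : False := by
  refine core_mm (N := N) (m := p / b) (m' := q / c) (y := 1 / b) (z := 1 / c) hN
    (by positivity) (by positivity) ((div_le_one hb0).2 hpb) ((div_le_one hc0).2 hqc) ?_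
    ((le_div_iff₀ hb0).2 (by linarith)) ((le_div_iff₀ hc0).2 (by linarith)) ?_ h2
  · have : N * (p / b * (q / c)) = (N * p * q) / (b * c) := by field_simp
    rw [this]
    exact (le_div_iff₀ (by positivity)).2 (by linarith)
  · have e1 : N * ((1 - p / b) * (1 - q / c)) = (N * (b - p) * (c - q)) / (b * c) := by
      field_simp
    have e2 : 1 / b + 1 / c = (b + c) / (b * c) := by
      field_simp
      ring
    rw [e1, e2]
    gcongr

end Vale.Agent.P052.R2.H958
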