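import Mathlib

namespace Vale.Agent.P052.R2.H958

open Finset Metric

variable {ι : Type*} [Fintype ι] [DecidableEq ι]

/-- two sum-zero vectors with a common largest coordinate are not nearly opposite -/
theorem ball_ineq {i : ι} {a c : ι → ℝ} (ha : ∑ j, a j = 0) (hc : ∑ j, c j = 0)
    (hai : ∀ j, a j ≤ a i) (hci : ∀ j, c j ≤ c i) :
    2 * (∑ j, a j ^ 2 + ∑ j, c j ^ 2) ≤ ((Fintype.card ι : ℝ) + 1) * ∑ j, (a j + c j) ^ 2 := by
  set N : ℝ := (Fintype.card ι : ℝ) with hN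
  have hcard : 0 < Fintype.card ι := Fintype.card_pos_iff.2 ⟨i⟩
  have hN1 : 1 ≤ N := by rw [hN]; exact_mod_cast hcard
  have hconst : ∀ t : ℝ, ∑ _k : ι, t = N * t := fun t => by
    rw [Finset.sum_const, Finset.card_univ, nsmul_eq_mul]
  set g : ι → ℝ := fun j => a i - a j with hg
  set h : ι → ℝ := fun j => c i - c j with hh
  have hg0 : ∀ j, 0 ≤ g j := fun j => by simp only [hg]; linarith [hai j]
  have hh0 : ∀ j, 0 ≤ h j := fun j => by simp only [hh]; linarith [hci j]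
  have hgi : g i = 0 := by simp [hg]
  have hhi : h i = 0 := by simp [hh]
  have hgs : ∑ j, g j = N * a i := by
    simp only [hg, Finset.sum_sub_distrib, hconst, ha]
    ring
  have hhs : ∑ j, h j = N * c i := by
    simp only [hh, Finset.sum_sub_distrib, hconst, hc]
    ring
  have ea : ∑ j, a j ^ 2 = ∑ j, g j ^ 2 - N * a i ^ 2 := by
    have : ∑ j, a j ^ 2 = N * a i ^ 2 - 2 * a i * ∑ j, g j + ∑ j, g j ^ 2 := by
      rw [Finset.mul_sum, ← hconst, ← Finset.sum_sub_distrib, ← Finset.sum_add_distrib]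
      exact Finset.sum_congr rfl fun j _ => by simp only [hg]; ring
    rw [this, hgs]
    ring
  have ec : ∑ j, c j ^ 2 = ∑ j, h j ^ 2 - N * c i ^ 2 := by
    have : ∑ j, c j ^ 2 = N * c i ^ 2 - 2 * c i * ∑ j, h j + ∑ j, h j ^ 2 := by
      rw [Finset.mul_sum, ← hconst, ← Finset.sum_sub_distrib, ← Finset.sum_add_distrib]
      exact Finset.sum_congr rfl fun j _ => by simp only [hh]; ring
    rw [this, hhs]
    ring
  have es : ∑ j, (a j + c j) ^ 2 = ∑ j, (g j + h j) ^ 2 - N * (a i + c i) ^ 2 := by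
    have : ∑ j, (a j + c j) ^ 2 = N * (a i + c i) ^ 2
        - 2 * (a i + c i) * (∑ j, g j + ∑ j, h j) + ∑ j, (g j + h j) ^ 2 := by
      rw [← Finset.sum_add_distrib, Finset.mul_sum, ← hconst, ← Finset.sum_sub_distrib,
        ← Finset.sum_add_distrib]
      exact Finset.sum_congr rfl fun j _ => by simp only [hg, hh]; ring
    rw [this, hgs, hhs]
    ring
  -- Cauchy over the indices different from `i`
  have hcs : (N * (a i + c i)) ^ 2 ≤ (N - 1) * ∑ j, (g j + h j) ^ 2 := by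
    have h2 : (∑ j ∈ Finset.univ.erase i, (g j + h j)) ^ 2
        ≤ ((Finset.univ.erase i).card : ℝ) * ∑ j ∈ Finset.univ.erase i, (g j + h j) ^ 2 :=
      sq_sum_le_card_mul_sum_sq
    have h3 : ∑ j ∈ Finset.univ.erase i, (g j + h j) = N * (a i + c i) := by
      rw [Finset.sum_erase _ (by rw [hgi, hhi, add_zero]), Finset.sum_add_distrib, hgs, hhs]
      ring
    have h4 : ∑ j ∈ Finset.univ.erase i, (g j + h j) ^ 2 = ∑ j, (g j + h j) ^ 2 := by
      exact Finset.sum_erase _ (by rw [hgi, hhi]; ring)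
    have h5 : ((Finset.univ.erase i).card : ℝ) = N - 1 := by
      rw [Finset.card_erase_of_mem (Finset.mem_univ i), Finset.card_univ, Nat.cast_pred hcard]
    rw [h3, h4, h5] at h2
    exact h2
  have hgh : ∑ j, g j ^ 2 + ∑ j, h j ^ 2 ≤ ∑ j, (g j + h j) ^ 2 := by
    rw [← Finset.sum_add_distrib]
    exact Finset.sum_le_sum fun j _ => by nlinarith [mul_nonneg (hg0 j) (hh0 j)]
  rw [ea, ec, es]
  set H := ∑ j, (g j + h j) ^ 2
  nlinarith [sq_nonneg (a i - c i)]

/-- coordinates of Euclidean space in the hyperplane of sum zero -/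
theorem exists_coords (d : ℕ) : ∃ a : EuclideanSpace ℝ (Fin d) → Fin (d + 1) → ℝ,
    (∀ x y j, a (x + y) j = a x j + a y j) ∧ (∀ x, ∑ j, a x j = 0) ∧
    (∀ x, ‖x‖ ^ 2 = ∑ j, a x j ^ 2) := by
  have : Fact (Module.finrank ℝ (EuclideanSpace ℝ (Fin (d + 1))) = d + 1) :=
    ⟨by simp⟩
  set e : EuclideanSpace ℝ (Fin (d + 1)) := WithLp.toLp 2 (fun _ => (1 : ℝ)) with he
  have he0 : e ≠ 0 := by
    intro h
    have := congrArg (fun v : EuclideanSpace ℝ (Fin (d + 1)) => v 0) h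
    simp [he] at this
  set φ := (OrthonormalBasis.fromOrthogonalSpanSingleton (𝕜 := ℝ) d he0).repr.symm with hφ
  refine ⟨fun x j => ((φ x : (ℝ ∙ e)ᗮ) : EuclideanSpace ℝ (Fin (d + 1))) j, ?_, ?_, ?_⟩
  · intro x y j
    change ((φ (x + y) : (ℝ ∙ e)ᗮ) : EuclideanSpace ℝ (Fin (d + 1))) j
      = ((φ x : (ℝ ∙ e)ᗮ) : EuclideanSpace ℝ (Fin (d + 1))) j
        + ((φ y : (ℝ ∙ e)ᗮ) : EuclideanSpace ℝ (Fin (d + 1))) j
    rw [map_add]
    rfl
  · intro x
    have h1 := Submodule.mem_orthogonal_singleton_iff_inner_right.1 (φ x).2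
    rw [PiLp.inner_apply] at h1
    simpa [he] using h1
  · intro x
    rw [← φ.norm_map x, ← Submodule.norm_coe (φ x), EuclideanSpace.norm_sq_eq]
    simp

/-- sets in a small ball -/
theorem ball_cover (d : ℕ) (B : Set (EuclideanSpace ℝ (Fin d))) (c : EuclideanSpace ℝ (Fin d))
    (r D : ℝ) (hr : 0 ≤ r) (hB : B ⊆ closedBall c r) (hD : 0 < D)
    (hrD : 4 * ((d : ℝ) + 1) * r ^ 2 < ((d : ℝ) + 2) * D ^ 2) :
    ∃ P : Fin (d + 1) → Set (EuclideanSpace ℝ (Fin d)), (⋃ i, P i) = B ∧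
      ∀ i, diam (P i) < D := by
  obtain ⟨a, ha1, ha2, ha3⟩ := exists_coords d
  refine ⟨fun i => {x | x ∈ B ∧ ∀ j, a (x - c) j ≤ a (x - c) i}, ?_, fun i => ?_⟩
  · ext x
    simp only [Set.mem_iUnion, Set.mem_ofPred_eq]
    constructor
    · rintro ⟨i, h, -⟩
      exact h
    · intro hx
      obtain ⟨i, -, hi⟩ := Finset.exists_max_image Finset.univ (fun j => a (x - c) j)
        Finset.univ_nonempty
      exact ⟨i, hx, fun j => hi j (Finset.mem_univ j)⟩
  · set T : ℝ := Real.sqrt (4 * ((d : ℝ) + 1) / ((d : ℝ) + 2) * r ^ 2) with hT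
    have hd2 : (0 : ℝ) < (d : ℝ) + 2 := by positivity
    have hTD : T < D := by
      rw [hT, Real.sqrt_lt' hD, div_mul_eq_mul_div, div_lt_iff₀ hd2]
      linarith
    refine lt_of_le_of_lt (diam_le_of_forall_dist_le (Real.sqrt_nonneg _) ?_) hTD
    rintro x ⟨hxB, hx⟩ y ⟨hyB, hy⟩
    have hxr : ‖x - c‖ ≤ r := by
      have := hB hxB
      rwa [mem_closedBall, dist_eq_norm] at this
    have hyr : ‖y - c‖ ≤ r := by
      have := hB hyB
      rwa [mem_closedBall, dist_eq_norm] at this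
    set u := x - c with hu
    set v := y - c with hv
    have h1 := ball_ineq (ha2 u) (ha2 v) hx hy
    rw [← ha3 u, ← ha3 v] at h1
    have h2 : ∑ j, (a u j + a v j) ^ 2 = ‖u + v‖ ^ 2 := by
      rw [ha3 (u + v)]
      exact Finset.sum_congr rfl fun j _ => by rw [ha1]
    rw [h2, Fintype.card_fin] at h1
    have h3 := parallelogram_law_with_norm ℝ u v
    have h4 : dist x y = ‖u - v‖ := by
      rw [dist_eq_norm, hu, hv]
      congr 1
      abel
    rw [h4]
    apply Real.le_sqrt_of_sq_le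
    rw [div_mul_eq_mul_div, le_div_iff₀ hd2]
    push_cast at h1
    have h5 : ‖u‖ ^ 2 ≤ r ^ 2 := by nlinarith [norm_nonneg u]
    have h6 : ‖v‖ ^ 2 ≤ r ^ 2 := by nlinarith [norm_nonneg v]
    have hd0 : (0 : ℝ) ≤ d := Nat.cast_nonneg d
    nlinarith

end Vale.Agent.P052.R2.H958
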