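import Vale.Agent.P052.R2.H958.Alg

namespace Vale.Agent.P052.R2.H958

open Finset

variable {ι : Type*} [Fintype ι]

/-- shift making the coordinates nonnegative -/
theorem exists_shift {x : ι → ℝ} (hs : ∑ j, x j = 1) (hx : ∀ j, ∑ k, x k ^ 2 ≤ 1 + 2 * x j) :
    ∃ p : ℝ, 0 ≤ p ∧ (∀ j, 0 ≤ x j + p) ∧ ∑ k, x k ^ 2 ≤ 1 - 2 * p := by
  by_cases h : ∀ j, 0 ≤ x j
  · refine ⟨0, le_rfl, fun j => by simpa using h j, ?_⟩
    have hle : ∀ j, x j ≤ 1 := fun j => by
      rw [← hs]
      exact Finset.single_le_sum (f := x) (fun k _ => h k) (Finset.mem_univ j)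
    calc ∑ k, x k ^ 2 ≤ ∑ k, x k := by
          apply Finset.sum_le_sum
          intro k _
          nlinarith [h k, hle k]
      _ = 1 - 2 * 0 := by rw [hs]; ring
  · push Not at h
    obtain ⟨j0, hj0⟩ := h
    obtain ⟨j, -, hj⟩ := Finset.exists_min_image Finset.univ x ⟨j0, Finset.mem_univ _⟩
    refine ⟨-x j, ?_, fun k => ?_, ?_⟩
    · have := hj j0 (Finset.mem_univ _)
      linarith
    · have := hj k (Finset.mem_univ _)
      linarith
    · have := hx j
      linarith

/-- the main inequality for two points of one cell, in shifted coordinates -/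
theorem cell_bc (hcard : Fintype.card ι ≤ 8) {i : ι} {x y : ι → ℝ} {p q : ℝ}
    (hxs : ∑ j, x j = 1) (hys : ∑ j, y j = 1) (hp0 : 0 ≤ p) (hq0 : 0 ≤ q)
    (hp : ∀ j, 0 ≤ x j + p) (hq : ∀ j, 0 ≤ y j + q)
    (hpx : ∑ k, x k ^ 2 ≤ 1 - 2 * p) (hqy : ∑ k, y k ^ 2 ≤ 1 - 2 * q)
    (hxi : ∀ j, x j ≤ x i) (hyi : ∀ j, y j ≤ y i) :
    (Fintype.card ι : ℝ) * p * q < ∑ j, (x j + p) * (y j + q) := by
  set N : ℝ := (Fintype.card ι : ℝ) with hN
  have hN8 : N ≤ 8 := by rw [hN]; exact_mod_cast hcard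
  have hNpos : 0 < N := by
    rw [hN]
    have : 0 < Fintype.card ι := Fintype.card_pos_iff.2 ⟨i⟩
    exact_mod_cast this
  have hconst : ∀ c : ℝ, ∑ _k : ι, c = N * c := fun c => by
    rw [Finset.sum_const, Finset.card_univ, nsmul_eq_mul]
  -- positivity of the largest coordinates
  have hxpos : 0 < x i := by
    have h1 : ∑ j, x j ≤ N * x i := by
      rw [← hconst]
      exact Finset.sum_le_sum fun j _ => hxi j
    by_contra hcon
    push Not at hcon
    nlinarith
  have hypos : 0 < y i := by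
    have h1 : ∑ j, y j ≤ N * y i := by
      rw [← hconst]
      exact Finset.sum_le_sum fun j _ => hyi j
    by_contra hcon
    push Not at hcon
    nlinarith
  set b : ι → ℝ := fun j => x j + p with hb
  set c : ι → ℝ := fun j => y j + q with hc
  have hbs : ∑ j, b j = 1 + N * p := by
    simp only [hb, Finset.sum_add_distrib, hconst, hxs]
  have hcs : ∑ j, c j = 1 + N * q := by
    simp only [hc, Finset.sum_add_distrib, hconst, hys]
  have hb2 : ∑ j, b j ^ 2 ≤ 1 + N * p ^ 2 := by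
    have : ∑ j, b j ^ 2 = ∑ j, x j ^ 2 + 2 * p * ∑ j, x j + N * p ^ 2 := by
      rw [Finset.mul_sum, ← hconst, ← Finset.sum_add_distrib, ← Finset.sum_add_distrib]
      exact Finset.sum_congr rfl fun j _ => by simp only [hb]; ring
    rw [this, hxs]
    linarith
  have hc2 : ∑ j, c j ^ 2 ≤ 1 + N * q ^ 2 := by
    have : ∑ j, c j ^ 2 = ∑ j, y j ^ 2 + 2 * q * ∑ j, y j + N * q ^ 2 := by
      rw [Finset.mul_sum, ← hconst, ← Finset.sum_add_distrib, ← Finset.sum_add_distrib]
      exact Finset.sum_congr rfl fun j _ => by simp only [hc]; ring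
    rw [this, hys]
    linarith
  by_contra hcon0
  have hcon : ∑ j, b j * c j ≤ N * p * q := not_lt.1 hcon0
  have hbn : ∀ j, 0 ≤ b j := hp
  have hcn : ∀ j, 0 ≤ c j := hq
  have hbi : ∀ j, b j ≤ b i := fun j => by simp only [hb]; linarith [hxi j]
  have hci : ∀ j, c j ≤ c i := fun j => by simp only [hc]; linarith [hyi j]
  have hbi0 : 0 < b i := by simp only [hb]; linarith
  have hci0 : 0 < c i := by simp only [hc]; linarith
  have hbi1 : b i ≤ 1 := by
    have h1 : x i ^ 2 ≤ 1 - 2 * p := le_trans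
      (Finset.single_le_sum (f := fun k => x k ^ 2) (fun k _ => sq_nonneg _) (Finset.mem_univ i))
      hpx
    simp only [hb]
    by_contra h
    push Not at h
    nlinarith [sq_nonneg p, sq_nonneg (x i)]
  have hci1 : c i ≤ 1 := by
    have h1 : y i ^ 2 ≤ 1 - 2 * q := le_trans
      (Finset.single_le_sum (f := fun k => y k ^ 2) (fun k _ => sq_nonneg _) (Finset.mem_univ i))
      hqy
    simp only [hc]
    by_contra h
    push Not at h
    nlinarith [sq_nonneg q, sq_nonneg (y i)]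
  -- E0
  have E0 : b i * c i ≤ N * p * q := by
    refine le_trans ?_ hcon
    exact Finset.single_le_sum (f := fun k => b k * c k)
      (fun k _ => mul_nonneg (hbn k) (hcn k)) (Finset.mem_univ i)
  -- E1
  have E1 : b i + c i ≤ N * (b i - p) * (c i - q) := by
    have h1 : 0 ≤ ∑ j, (b i - b j) * (c i - c j) :=
      Finset.sum_nonneg fun j _ => mul_nonneg (by linarith [hbi j]) (by linarith [hci j])
    have h2 : ∑ j, (b i - b j) * (c i - c j)
        = N * (b i * c i) - b i * ∑ j, c j - c i * ∑ j, b j + ∑ j, b j * c j := by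
      rw [Finset.mul_sum, Finset.mul_sum, ← hconst, ← Finset.sum_sub_distrib,
        ← Finset.sum_sub_distrib, ← Finset.sum_add_distrib]
      exact Finset.sum_congr rfl fun j _ => by ring
    rw [h2, hbs, hcs] at h1
    nlinarith
  -- E2
  have E2 : 3 ≤ (1 / b i - 1) ^ 2 + (1 / c i - 1) ^ 2 + N * (1 - p / b i - q / c i) ^ 2 := by
    have h1 : (1 : ℝ) ≤ ∑ j, (b j / b i + c j / c i - 1) ^ 2 := by
      have := Finset.single_le_sum (f := fun j => (b j / b i + c j / c i - 1) ^ 2)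
        (fun k _ => sq_nonneg _) (Finset.mem_univ i)
      simp only [div_self hbi0.ne', div_self hci0.ne'] at this
      linarith
    have h2 : ∑ j, (b j / b i + c j / c i - 1) ^ 2
        = (1 / b i) ^ 2 * ∑ j, b j ^ 2 + (1 / c i) ^ 2 * ∑ j, c j ^ 2
          + 2 * (1 / b i) * (1 / c i) * ∑ j, b j * c j - 2 * (1 / b i) * ∑ j, b j
          - 2 * (1 / c i) * ∑ j, c j + N * 1 := by
      rw [Finset.mul_sum, Finset.mul_sum, Finset.mul_sum, Finset.mul_sum, Finset.mul_sum,
        ← hconst, ← Finset.sum_add_distrib, ← Finset.sum_add_distrib, ← Finset.sum_sub_distrib,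
        ← Finset.sum_sub_distrib, ← Finset.sum_add_distrib]
      exact Finset.sum_congr rfl fun j _ => by
        field_simp
        ring
    rw [h2, hbs, hcs] at h1
    have h3 : (1 / b i) ^ 2 * ∑ j, b j ^ 2 ≤ (1 / b i) ^ 2 * (1 + N * p ^ 2) :=
      mul_le_mul_of_nonneg_left hb2 (sq_nonneg _)
    have h4 : (1 / c i) ^ 2 * ∑ j, c j ^ 2 ≤ (1 / c i) ^ 2 * (1 + N * q ^ 2) :=
      mul_le_mul_of_nonneg_left hc2 (sq_nonneg _)
    have h5 : 2 * (1 / b i) * (1 / c i) * ∑ j, b j * c j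
        ≤ 2 * (1 / b i) * (1 / c i) * (N * p * q) :=
      mul_le_mul_of_nonneg_left hcon (by positivity)
    have h6 : p / b i = p * (1 / b i) := by ring
    have h7 : q / c i = q * (1 / c i) := by ring
    rw [h6, h7]
    nlinarith
  refine core_bc (N := N) (b := b i) (c := c i) (p := p) (q := q) hN8 hbi0 hbi1 hci0 hci1
    hp0 hq0 ?_ ?_ E0 E1 E2
  · simp only [hb]; linarith
  · simp only [hc]; linarith

theorem sum_shift {x y : ι → ℝ} {p q : ℝ} (hxs : ∑ j, x j = 1) (hys : ∑ j, y j = 1) :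
    ∑ j, x j * y j = ∑ j, (x j + p) * (y j + q) - p - q - (Fintype.card ι : ℝ) * p * q := by
  have hconst : ∀ c : ℝ, ∑ _k : ι, c = (Fintype.card ι : ℝ) * c := fun c => by
    rw [Finset.sum_const, Finset.card_univ, nsmul_eq_mul]
  have : ∑ j, (x j + p) * (y j + q) = ∑ j, x j * y j + q * ∑ j, x j + p * ∑ j, y j
      + (Fintype.card ι : ℝ) * (p * q) := by
    rw [Finset.mul_sum, Finset.mul_sum, ← hconst, ← Finset.sum_add_distrib,
      ← Finset.sum_add_distrib, ← Finset.sum_add_distrib]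
    exact Finset.sum_congr rfl fun j _ => by ring
  rw [this, hxs, hys]
  ring

theorem sum_sub_sq (x y : ι → ℝ) :
    ∑ k, (x k - y k) ^ 2 = ∑ k, x k ^ 2 + ∑ k, y k ^ 2 - 2 * ∑ k, x k * y k := by
  rw [Finset.mul_sum, ← Finset.sum_add_distrib, ← Finset.sum_sub_distrib]
  exact Finset.sum_congr rfl fun j _ => by ring

/-- two points of one cell are at distance less than one (in barycentric coordinates) -/
theorem cell_lt (hcard : Fintype.card ι ≤ 8) {i : ι} {x y : ι → ℝ}
    (hxs : ∑ j, x j = 1) (hys : ∑ j, y j = 1)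
    (hx : ∀ j, ∑ k, x k ^ 2 ≤ 1 + 2 * x j) (hy : ∀ j, ∑ k, y k ^ 2 ≤ 1 + 2 * y j)
    (hxi : ∀ j, x j ≤ x i) (hyi : ∀ j, y j ≤ y i) :
    ∑ k, (x k - y k) ^ 2 < 2 := by
  obtain ⟨p, hp0, hp, hpx⟩ := exists_shift hxs hx
  obtain ⟨q, hq0, hq, hqy⟩ := exists_shift hys hy
  have h := cell_bc hcard hxs hys hp0 hq0 hp hq hpx hqy hxi hyi
  rw [sum_sub_sq, sum_shift (p := p) (q := q) hxs hys]
  linarith

end Vale.Agent.P052.R2.H958
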