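import Vale.Agent.P052.R2.H958.Cell

namespace Vale.Agent.P052.R2.H958

open Finset Metric

variable {V : Type*} [NormedAddCommGroup V] [InnerProductSpace ℝ V]
variable {ι : Type*} [Fintype ι] [DecidableEq ι]

omit [InnerProductSpace ℝ V] in
/-- the quadratic form of a regular simplex -/
theorem quad_form {s : ι → V} {D : ℝ} (hs : ∀ i j, i ≠ j → dist (s i) (s j) = D)
    (a : ι → ℝ) (ha : ∑ j, a j = 0) :
    (-∑ i, ∑ j, a i * a j * (dist (s i) (s j) * dist (s i) (s j))) / 2
      = D ^ 2 / 2 * ∑ j, a j ^ 2 := by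
  have h1 : ∀ i, ∑ j, a i * a j * (dist (s i) (s j) * dist (s i) (s j))
      = - (D ^ 2 * a i ^ 2) := by
    intro i
    have h2 : ∀ j, a i * a j * (dist (s i) (s j) * dist (s i) (s j))
        = D ^ 2 * a i * a j - (if j = i then D ^ 2 * a i * a j else 0) := by
      intro j
      by_cases hij : j = i
      · subst hij
        simp
      · rw [hs i j (Ne.symm hij), if_neg hij]
        ring
    rw [Finset.sum_congr rfl fun j _ => h2 j, Finset.sum_sub_distrib, ← Finset.mul_sum, ha]
    simp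
    ring
  rw [Finset.sum_congr rfl fun i _ => h1 i, Finset.sum_neg_distrib, ← Finset.mul_sum]
  ring

/-- squared distances in barycentric coordinates of a regular simplex -/
theorem dist_sq {s : ι → V} {D : ℝ} (hs : ∀ i j, i ≠ j → dist (s i) (s j) = D)
    {w v : ι → ℝ} (hw : ∑ j, w j = 1) (hv : ∑ j, v j = 1) :
    dist (Finset.univ.affineCombination ℝ s w) (Finset.univ.affineCombination ℝ s v) ^ 2
      = D ^ 2 / 2 * ∑ j, (w j - v j) ^ 2 := by
  have h := EuclideanGeometry.dist_affineCombination (s := Finset.univ) s hw hv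
  have h0 : ∑ j, (w - v) j = 0 := by
    simp [Finset.sum_sub_distrib, hw, hv]
  have h2 := quad_form hs (w - v) h0
  rw [pow_two]
  refine Eq.trans h ?_
  rw [h2]
  simp

theorem affineIndependent_of_regular {s : ι → V} {D : ℝ} (hD : 0 < D)
    (hs : ∀ i j, i ≠ j → dist (s i) (s j) = D) : AffineIndependent ℝ s := by
  rw [affineIndependent_iff_of_fintype]
  intro w hw h0 i
  have h1 := EuclideanGeometry.inner_weightedVSub (s₁ := Finset.univ) (s₂ := Finset.univ) s hw s hw
  rw [h0, inner_zero_left, quad_form hs w hw] at h1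
  have h2 : ∑ j, w j ^ 2 = 0 := by
    have : D ^ 2 / 2 ≠ 0 := by positivity
    rcases mul_eq_zero.1 h1.symm with h | h
    · exact absurd h this
    · exact h
  have h3 := (Finset.sum_eq_zero_iff_of_nonneg (fun j _ => sq_nonneg (w j))).1 h2 i
    (Finset.mem_univ i)
  exact pow_eq_zero_iff (two_ne_zero) |>.1 h3

/-- two points of the cell of `s i` are at distance less than the edge -/
theorem dist_lt_of_cell [FiniteDimensional ℝ V] {s : ι → V} {D : ℝ} (hD : 0 < D)
    (hcard : Fintype.card ι = Module.finrank ℝ V + 1) (h8 : Fintype.card ι ≤ 8)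
    (hs : ∀ i j, i ≠ j → dist (s i) (s j) = D) {i : ι} {x y : V}
    (hx : ∀ j, dist x (s j) ≤ D) (hy : ∀ j, dist y (s j) ≤ D)
    (hxi : ∀ j, dist x (s i) ≤ dist x (s j)) (hyi : ∀ j, dist y (s i) ≤ dist y (s j)) :
    dist x y < D := by
  have hai := affineIndependent_of_regular hD hs
  have htop := (hai.affineSpan_eq_top_iff_card_eq_finrank_add_one).2 hcard
  have hmem : ∀ z : V, ∃ w : ι → ℝ, ∑ j, w j = 1 ∧ z = Finset.univ.affineCombination ℝ s w :=
    fun z => eq_affineCombination_of_mem_affineSpan_of_fintype (by rw [htop]; exact trivial)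
  have hvert : ∀ {z : V} {w : ι → ℝ} (_ : ∑ j, w j = 1)
      (_ : z = Finset.univ.affineCombination ℝ s w) (j : ι),
      dist z (s j) ^ 2 = D ^ 2 / 2 * (∑ k, w k ^ 2 - 2 * w j + 1) := by
    intro z w hw hz j
    have h1 : s j = Finset.univ.affineCombination ℝ s
        (Pi.single j (1 : ℝ)) :=
      (Finset.affineCombination_piSingle ℝ _ s (Finset.mem_univ j)).symm
    have h2 : ∑ k, (Pi.single j (1 : ℝ) : ι → ℝ) k = 1 := by simp
    have h3 := dist_sq hs hw h2
    rw [← h1, ← hz] at h3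
    rw [h3]
    congr 1
    have h4 : ∀ k, (w k - (Pi.single j (1 : ℝ) : ι → ℝ) k) ^ 2
        = w k ^ 2 + (if k = j then (1 - 2 * w j) else 0) := by
      intro k
      by_cases hk : k = j
      · subst hk
        rw [Pi.single_eq_same, if_pos rfl]
        ring
      · rw [Pi.single_eq_of_ne hk, if_neg hk]
        ring
    rw [Finset.sum_congr rfl fun k _ => h4 k, Finset.sum_add_distrib]
    simp
    ring
  obtain ⟨w, hw, hxw⟩ := hmem x
  obtain ⟨v, hv, hyv⟩ := hmem y
  have hD2 : 0 < D ^ 2 := by positivity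
  have hA : ∀ {z : V} {w : ι → ℝ} (_ : ∑ j, w j = 1)
      (_ : z = Finset.univ.affineCombination ℝ s w) (_ : ∀ j, dist z (s j) ≤ D) (j : ι),
      ∑ k, w k ^ 2 ≤ 1 + 2 * w j := by
    intro z w hw hz hd j
    have h1 : dist z (s j) ^ 2 ≤ D ^ 2 := by
      have := hd j
      have h0 : 0 ≤ dist z (s j) := dist_nonneg
      nlinarith
    rw [hvert hw hz j] at h1
    nlinarith
  have hB : ∀ {z : V} {w : ι → ℝ} (_ : ∑ j, w j = 1)
      (_ : z = Finset.univ.affineCombination ℝ s w) (_ : ∀ j, dist z (s i) ≤ dist z (s j))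
      (j : ι), w j ≤ w i := by
    intro z w hw hz hd j
    have h1 : dist z (s i) ^ 2 ≤ dist z (s j) ^ 2 := by
      have := hd j
      have h0 : 0 ≤ dist z (s i) := dist_nonneg
      nlinarith
    rw [hvert hw hz j, hvert hw hz i] at h1
    nlinarith
  have h := cell_lt h8 hw hv (hA hw hxw hx) (hA hv hyv hy) (hB hw hxw hxi) (hB hv hyv hyi)
  have h2 := dist_sq hs hw hv
  rw [← hxw, ← hyv] at h2
  have h3 : dist x y ^ 2 < D ^ 2 := by
    rw [h2]
    nlinarith
  nlinarith [dist_nonneg (x := x) (y := y)]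

end Vale.Agent.P052.R2.H958
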