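import Vale.Agent.P052.R2.H958.Jung

namespace Vale.Agent.P052.R2.H958

open Finset Metric

/-- clause on the circumradius: sets which are not contained in a ball of radius slightly less
than Jung's radius -/
theorem jung_near (d : ℕ) (hd : d ≤ 7) :
    ∃ δ : ℝ, 0 < δ ∧ ∀ X : Set (EuclideanSpace ℝ (Fin d)), Bornology.IsBounded X →
      0 < diam X →
      (∀ c, ¬ X ⊆ closedBall c ((1 - δ) * Real.sqrt (d / (2 * (d + 1))) * diam X)) →
        ∃ P : Fin (d + 1) → Set (EuclideanSpace ℝ (Fin d)),
          (⋃ i, P i) = X ∧ ∀ i, diam (P i) < diam X := by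
  obtain ⟨ε0, hε0, hmain⟩ := simplex_near d hd
  set ε : ℝ := min ε0 1 with hε
  have hεpos : 0 < ε := lt_min hε0 one_pos
  have hε1 : ε ≤ 1 := min_le_right _ _
  have hεle : ε ≤ ε0 := min_le_left _ _
  set η : ℝ := 1 - (1 - ε) ^ 2 with hη
  have hηpos : 0 < η := by
    rw [hη]
    nlinarith
  have hη1 : η ≤ 1 := by
    rw [hη]
    nlinarith [sq_nonneg (1 - ε)]
  set N : ℝ := (d : ℝ) + 1 with hN
  have hd0 : (0 : ℝ) ≤ d := Nat.cast_nonneg d
  have hN1 : 1 ≤ N := by rw [hN]; linarith
  have hδpos : 0 < η / (8 * N ^ 2) := by positivity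
  have hδ1 : η / (8 * N ^ 2) ≤ 1 := by
    rw [div_le_one (by positivity)]
    nlinarith
  refine ⟨η / (8 * N ^ 2), hδpos, fun X hX hD hnot => ?_⟩
  set δ : ℝ := η / (8 * N ^ 2) with hδ
  set D := diam X with hDd
  set J : ℝ := Real.sqrt (d / (2 * (d + 1))) with hJ
  have hJ2 : J ^ 2 = 1 / 2 * (1 - 1 / N) := by
    rw [hJ, Real.sq_sqrt (by positivity), hN]
    field_simp
    ring
  have hJ0 : 0 ≤ J := Real.sqrt_nonneg _
  by_contra hcon
  -- every `d + 1` points of `X` lie in a ball of the smaller radius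
  have hball : ∀ v : Fin (d + 1) → EuclideanSpace ℝ (Fin d), (∀ a, v a ∈ X) →
      ∃ c, ∀ a, dist (v a) c ≤ (1 - δ) * J * D := by
    intro v hv
    have hdist : ∀ x ∈ X, ∀ y ∈ X, dist x y ≤ D := fun x hx y hy => dist_le_diam_of_mem hX hx hy
    have hex : ∃ a b, a ≠ b ∧ dist (v a) (v b) < (1 - ε0) * D := by
      by_contra h
      push Not at h
      exact hcon (hmain X hX hD v h
        (fun a b => (hdist _ (hv a) _ (hv b)).trans (by nlinarith))
        (fun x hx a => (hdist _ hx _ (hv a)).trans (by nlinarith)))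
    obtain ⟨a, b, hab, hlt⟩ := hex
    have hsc : ∀ x y : EuclideanSpace ℝ (Fin d), dist (D⁻¹ • x) (D⁻¹ • y) = D⁻¹ * dist x y := by
      intro x y
      rw [dist_smul₀, Real.norm_eq_abs, abs_of_pos (inv_pos.2 hD)]
    obtain ⟨c, hc⟩ := small_ball (fun i => D⁻¹ • v i)
      (by
        intro i j
        rw [hsc, inv_mul_le_iff₀ hD, mul_one]
        exact hdist _ (hv i) _ (hv j)) hηpos.le hη1 hab
      (by
        have h1 : dist (D⁻¹ • v a) (D⁻¹ • v b) ≤ 1 - ε := by
          rw [hsc, inv_mul_le_iff₀ hD]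
          nlinarith
        have h0 : 0 ≤ dist (D⁻¹ • v a) (D⁻¹ • v b) := dist_nonneg
        rw [hη]
        nlinarith)
    refine ⟨D • c, fun j => ?_⟩
    have h1 := hc j
    rw [Fintype.card_fin] at h1
    push_cast at h1
    rw [← hN, ← hδ, ← hJ2] at h1
    have h2 : ‖D⁻¹ • v j - c‖ ≤ (1 - δ) * J := by
      apply abs_le_of_sq_le_sq' _ (mul_nonneg (by linarith) hJ0) |>.2
      refine h1.trans ?_
      have hJ2' : J ^ 2 ≤ 1 / 2 := by
        rw [hJ2]
        have : 0 ≤ 1 / N := by positivity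
        linarith
      nlinarith [sq_nonneg (δ * J)]
    have h3 : dist (v j) (D • c) = D * ‖D⁻¹ • v j - c‖ := by
      have : v j - D • c = D • (D⁻¹ • v j - c) := by
        rw [smul_sub, smul_smul, mul_inv_cancel₀ hD.ne', one_smul]
      rw [dist_eq_norm, this, norm_smul, Real.norm_eq_abs, abs_of_pos hD]
    rw [h3, mul_comm ((1 - δ) * J) D]
    exact mul_le_mul_of_nonneg_left h2 hD.le
  -- Helly
  have hHelly : (⋂ x : X, closedBall (x : EuclideanSpace ℝ (Fin d)) ((1 - δ) * J * D)).Nonempty := by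
    apply Convex.helly_theorem_compact' (𝕜 := ℝ)
    · exact fun x => convex_closedBall _ _
    · exact fun x => isCompact_closedBall _ _
    · intro I hI
      rcases I.eq_empty_or_nonempty with rfl | hne
      · simp
      have hcard : Fintype.card I ≤ Fintype.card (Fin (d + 1)) := by
        rw [Fintype.card_coe, Fintype.card_fin]
        simpa using hI
      obtain ⟨e⟩ := Function.Embedding.nonempty_of_card_le hcard
      have : Nonempty I := hne.to_subtype
      have hsurj := Function.invFun_surjective e.injective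
      obtain ⟨c, hc⟩ := hball (fun k => ((Function.invFun e k : I) : X).1)
        (fun k => ((Function.invFun e k : I) : X).2)
      refine ⟨c, ?_⟩
      simp only [Set.mem_iInter]
      intro x hx
      obtain ⟨k, hk⟩ := hsurj ⟨x, hx⟩
      have := hc k
      rw [hk] at this
      rw [mem_closedBall, dist_comm]
      exact this
  obtain ⟨c, hc⟩ := hHelly
  refine hnot c fun x hx => ?_
  have := Set.mem_iInter.1 hc ⟨x, hx⟩
  rw [mem_closedBall, dist_comm] at this
  exact this

end Vale.Agent.P052.R2.H958
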