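import Vale.Agent.P052.R2.H958.Geo
import Vale.Agent.P052.Defs

namespace Vale.Agent.P052.R2.H958

open Finset Metric

variable {V : Type*} [NormedAddCommGroup V] [InnerProductSpace ℝ V]
variable {ι : Type*} [Fintype ι] [DecidableEq ι]

omit [InnerProductSpace ℝ V] in
theorem diam_lt_of_compact {K : Set V} (hK : IsCompact K) {D : ℝ} (hD : 0 < D)
    (h : ∀ x ∈ K, ∀ y ∈ K, dist x y < D) : diam K < D := by
  rcases K.eq_empty_or_nonempty with rfl | hne
  · simpa using hD
  obtain ⟨z, hz, hmax⟩ := (hK.prod hK).exists_isMaxOn (hne.prod hne)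
    (f := fun z : V × V => dist z.1 z.2) (by fun_prop)
  have h1 : diam K ≤ dist z.1 z.2 := by
    apply diam_le_of_forall_dist_le dist_nonneg
    intro x hx y hy
    exact hmax (Set.mk_mem_prod hx hy)
  exact lt_of_le_of_lt h1 (h _ hz.1 _ hz.2)

/-- configurations: an almost regular simplex and two far points in one cell -/
def Kset (V : Type*) [NormedAddCommGroup V] [InnerProductSpace ℝ V] (i : ι) (ε : ℝ) :
    Set ((ι → V) × V × V) :=
  {z | z.1 i = 0 ∧ (∀ a b, a ≠ b → 1 - ε ≤ dist (z.1 a) (z.1 b)) ∧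
    (∀ a b, dist (z.1 a) (z.1 b) ≤ 1 + ε) ∧
    (∀ j, dist z.2.1 (z.1 j) ≤ 1 + ε) ∧ (∀ j, dist z.2.2 (z.1 j) ≤ 1 + ε) ∧
    (∀ j, dist z.2.1 (z.1 i) ≤ dist z.2.1 (z.1 j)) ∧
    (∀ j, dist z.2.2 (z.1 i) ≤ dist z.2.2 (z.1 j)) ∧ 1 ≤ dist z.2.1 z.2.2}

omit [Fintype ι] [DecidableEq ι] in
theorem Kset_closed (i : ι) (ε : ℝ) : IsClosed (Kset V i ε) := by
  unfold Kset
  simp only [Set.ofPred_and, Set.ofPred_forall]
  refine IsClosed.inter (isClosed_eq (by fun_prop) (by fun_prop)) ?_
  refine IsClosed.inter ?_ (IsClosed.inter ?_ (IsClosed.inter ?_ (IsClosed.inter ?_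
    (IsClosed.inter ?_ (IsClosed.inter ?_ ?_)))))
  · exact isClosed_iInter fun a => isClosed_iInter fun b => isClosed_iInter fun _ =>
      isClosed_le (by fun_prop) (by fun_prop)
  · exact isClosed_iInter fun a => isClosed_iInter fun b =>
      isClosed_le (by fun_prop) (by fun_prop)
  · exact isClosed_iInter fun a => isClosed_le (by fun_prop) (by fun_prop)
  · exact isClosed_iInter fun a => isClosed_le (by fun_prop) (by fun_prop)
  · exact isClosed_iInter fun a => isClosed_le (by fun_prop) (by fun_prop)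
  · exact isClosed_iInter fun a => isClosed_le (by fun_prop) (by fun_prop)
  · exact isClosed_le (by fun_prop) (by fun_prop)

omit [DecidableEq ι] in
theorem Kset_compact [FiniteDimensional ℝ V] (i : ι) (ε : ℝ) (hε : 0 ≤ ε) :
    IsCompact (Kset V i ε) := by
  have : ProperSpace V := FiniteDimensional.proper ℝ V
  apply Metric.isCompact_of_isClosed_isBounded (Kset_closed i ε)
  apply (Metric.isBounded_closedBall (x := (0 : (ι → V) × V × V)) (r := 1 + ε)).subset
  rintro ⟨t, x, y⟩ ⟨h0, -, h1, h2, h3, -⟩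
  simp only at h0 h1 h2 h3
  rw [mem_closedBall_zero_iff, Prod.norm_def, Prod.norm_def]
  refine max_le ?_ (max_le ?_ ?_)
  · refine (pi_norm_le_iff_of_nonneg (by linarith)).2 fun a => ?_
    have := h1 a i
    rwa [h0, dist_zero_right] at this
  · have := h2 i
    rwa [h0, dist_zero_right] at this
  · have := h3 i
    rwa [h0, dist_zero_right] at this

omit [DecidableEq ι] [Fintype ι] in
theorem Kset_mono (i : ι) {ε δ : ℝ} (h : ε ≤ δ) : Kset V i ε ⊆ Kset V i δ := by
  rintro z ⟨h0, h1, h2, h3, h4, h5⟩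
  exact ⟨h0, fun a b hab => le_trans (by linarith) (h1 a b hab),
    fun a b => le_trans (h2 a b) (by linarith), fun j => le_trans (h3 j) (by linarith),
    fun j => le_trans (h4 j) (by linarith), h5⟩

theorem exists_empty [FiniteDimensional ℝ V]
    (hcard : Fintype.card ι = Module.finrank ℝ V + 1) (h8 : Fintype.card ι ≤ 8) (i : ι) :
    ∃ n : ℕ, Kset V i (1 / ((n : ℝ) + 1)) = ∅ := by
  by_contra hcon
  push Not at hcon
  have hne : ∀ n : ℕ, (Kset V i (1 / ((n : ℝ) + 1))).Nonempty := hcon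
  obtain ⟨z, hz⟩ := IsCompact.nonempty_iInter_of_sequence_nonempty_isCompact_isClosed
    (fun n : ℕ => Kset V i (1 / ((n : ℝ) + 1)))
    (fun n => Kset_mono i (by
      push_cast
      apply one_div_le_one_div_of_le <;> linarith [(Nat.cast_nonneg n : (0 : ℝ) ≤ n)]))
    hne (Kset_compact i _ (by positivity)) (fun n => Kset_closed i _)
  rw [Set.mem_iInter] at hz
  obtain ⟨-, -, -, -, -, h5, h6, h7⟩ := hz 0
  have hlim0 := tendsto_one_div_add_atTop_nhds_zero_nat (𝕜 := ℝ)
  have hlim : Filter.Tendsto (fun n : ℕ => 1 - 1 / ((n : ℝ) + 1)) Filter.atTop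
      (nhds (1 - 0)) := tendsto_const_nhds.sub hlim0
  have hlim' : Filter.Tendsto (fun n : ℕ => 1 + 1 / ((n : ℝ) + 1)) Filter.atTop
      (nhds (1 + 0)) := tendsto_const_nhds.add hlim0
  rw [sub_zero] at hlim
  rw [add_zero] at hlim'
  have h1 : ∀ a b, a ≠ b → dist (z.1 a) (z.1 b) = 1 := by
    intro a b hab
    refine le_antisymm ?_ ?_
    · exact ge_of_tendsto hlim' (Filter.Eventually.of_forall fun n => (hz n).2.2.1 a b)
    · exact le_of_tendsto hlim (Filter.Eventually.of_forall fun n => (hz n).2.1 a b hab)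
  have h3 : ∀ j, dist z.2.1 (z.1 j) ≤ 1 := fun j =>
    ge_of_tendsto hlim' (Filter.Eventually.of_forall fun n => (hz n).2.2.2.1 j)
  have h4 : ∀ j, dist z.2.2 (z.1 j) ≤ 1 := fun j =>
    ge_of_tendsto hlim' (Filter.Eventually.of_forall fun n => (hz n).2.2.2.2.1 j)
  have := dist_lt_of_cell one_pos hcard h8 h1 h3 h4 h5 h6
  exact absurd h7 (not_le.2 this)

theorem exists_eps [FiniteDimensional ℝ V]
    (hcard : Fintype.card ι = Module.finrank ℝ V + 1) (h8 : Fintype.card ι ≤ 8) :
    ∃ ε : ℝ, 0 < ε ∧ ∀ i : ι, Kset V i ε = ∅ := by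
  choose n hn using fun i : ι => exists_empty (V := V) hcard h8 i
  refine ⟨1 / (((Finset.univ.sup n : ℕ) : ℝ) + 1), by positivity, fun i => ?_⟩
  have h1 : (1 : ℝ) / (((Finset.univ.sup n : ℕ) : ℝ) + 1) ≤ 1 / ((n i : ℝ) + 1) := by
    have h2 : n i ≤ Finset.univ.sup n := Finset.le_sup (Finset.mem_univ i)
    have h3 : (n i : ℝ) ≤ ((Finset.univ.sup n : ℕ) : ℝ) := by exact_mod_cast h2
    apply one_div_le_one_div_of_le <;> linarith [(Nat.cast_nonneg (n i) : (0 : ℝ) ≤ n i)]
  exact Set.subset_eq_empty (Kset_mono i h1) (hn i)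

/-- sets with an almost regular simplex of edge the diameter -/
theorem near_simplex [FiniteDimensional ℝ V]
    (hcard : Fintype.card ι = Module.finrank ℝ V + 1) (h8 : Fintype.card ι ≤ 8) :
    ∃ ε : ℝ, 0 < ε ∧ ∀ X : Set V, Bornology.IsBounded X → 0 < diam X →
      ∀ t : ι → V, (∀ a b, a ≠ b → (1 - ε) * diam X ≤ dist (t a) (t b)) →
        (∀ a b, dist (t a) (t b) ≤ (1 + ε) * diam X) →
        (∀ x ∈ X, ∀ a, dist x (t a) ≤ (1 + ε) * diam X) →
        ∃ P : ι → Set V, (⋃ i, P i) = X ∧ ∀ i, diam (P i) < diam X := by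
  have : ProperSpace V := FiniteDimensional.proper ℝ V
  obtain ⟨ε, hε, hK⟩ := exists_eps (V := V) (ι := ι) hcard h8
  refine ⟨ε, hε, fun X hX hD t hd ht hxt => ?_⟩
  have hxt' : ∀ x ∈ closure X, ∀ a, dist x (t a) ≤ (1 + ε) * diam X := by
    intro x hx a
    have hcl : IsClosed {x : V | dist x (t a) ≤ (1 + ε) * diam X} :=
      isClosed_le (by fun_prop) (by fun_prop)
    exact closure_minimal (fun x hx => hxt x hx a) hcl hx
  set P : ι → Set V := fun i => {x | x ∈ closure X ∧ ∀ j, dist x (t i) ≤ dist x (t j)} with hP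
  have hPc : ∀ i, IsCompact (P i) := by
    intro i
    apply Metric.isCompact_of_isClosed_isBounded
    · simp only [hP, Set.ofPred_and, Set.ofPred_forall]
      exact isClosed_closure.inter (isClosed_iInter fun a =>
        isClosed_le (by fun_prop) (by fun_prop))
    · exact hX.closure.subset fun x hx => hx.1
  have hPd : ∀ i, diam (P i) < diam X := by
    intro i
    apply diam_lt_of_compact (hPc i) hD
    intro x hx y hy
    by_contra hcon
    push Not at hcon
    have hsc : ∀ a b : V, dist ((diam X)⁻¹ • (a - t i)) ((diam X)⁻¹ • (b - t i))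
        = (diam X)⁻¹ * dist a b := by
      intro a b
      rw [dist_smul₀, dist_sub_right, Real.norm_eq_abs, abs_of_pos (inv_pos.2 hD)]
    have hle : ∀ a b : V, dist a b ≤ (1 + ε) * diam X → (diam X)⁻¹ * dist a b ≤ 1 + ε := by
      intro a b hab
      rw [inv_mul_le_iff₀ hD, mul_comm]
      exact hab
    have hmem : ((fun a => (diam X)⁻¹ • (t a - t i), (diam X)⁻¹ • (x - t i),
        (diam X)⁻¹ • (y - t i)) : (ι → V) × V × V) ∈ Kset V i ε := by
      refine ⟨by simp, ?_, ?_, ?_, ?_, ?_, ?_, ?_⟩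
      · intro a b hab
        simp only [hsc]
        rw [le_inv_mul_iff₀ hD, mul_comm]
        exact hd a b hab
      · intro a b
        simp only [hsc]
        exact hle _ _ (ht a b)
      · intro j
        simp only [hsc]
        exact hle _ _ (hxt' _ hx.1 j)
      · intro j
        simp only [hsc]
        exact hle _ _ (hxt' _ hy.1 j)
      · intro j
        simp only [hsc]
        exact mul_le_mul_of_nonneg_left (hx.2 j) (inv_pos.2 hD).le
      · intro j
        simp only [hsc]
        exact mul_le_mul_of_nonneg_left (hy.2 j) (inv_pos.2 hD).le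
      · simp only [hsc]
        rw [le_inv_mul_iff₀ hD, mul_one]
        exact hcon
    rw [hK i] at hmem
    exact hmem
  refine ⟨fun i => X ∩ P i, ?_, fun i => ?_⟩
  · rw [← Set.inter_iUnion]
    refine Set.inter_eq_left.2 fun x hx => ?_
    have : Nonempty ι := Fintype.card_pos_iff.1 (by omega)
    obtain ⟨i, -, hi⟩ := Finset.exists_min_image Finset.univ (fun j => dist x (t j))
      Finset.univ_nonempty
    exact Set.mem_iUnion.2 ⟨i, subset_closure hx, fun j => hi j (Finset.mem_univ j)⟩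
  · exact lt_of_le_of_lt (diam_mono Set.inter_subset_right (hPc i).isBounded) (hPd i)

end Vale.Agent.P052.R2.H958
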