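import Vale.Agent.P052.R2.H958.Cell

namespace Vale.Agent.P052.R2.H958

open Finset

/-- the equality case in dimension eight, from the scalar statement -/
theorem pair_eq_of_scalar
    (scalar_eq : ∀ (b c p q : ℝ) (_ : b ≤ 1) (_ : c ≤ 1) (_ : 0 ≤ p) (_ : 0 ≤ q)
      (_ : p < b) (_ : q < c) (_ : b * c ≤ 9 * p * q)
      (_ : b + c ≤ 9 * (b - p) * (c - q))
      (_ : 9 * (b + c - (p + q)) ^ 2 ≤ 12 + 4 * (b + c) - 36 * (p + q)),
      b = 1 / 2 ∧ c = 1 / 2 ∧ p = 1 / 6 ∧ q = 1 / 6)
    (y z : Fin 9 → ℝ) (hy : ∑ j, y j = 1 ∧ ∀ i, ∑ j, y j ^ 2 ≤ 1 + 2 * y i)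
    (hz : ∑ j, z j = 1 ∧ ∀ i, ∑ j, z j ^ 2 ≤ 1 + 2 * z i) (i : Fin 9)
    (hyi : ∀ k, y k ≤ y i) (hzi : ∀ k, z k ≤ z i) (h : 2 ≤ ∑ j, (y j - z j) ^ 2) :
    ∃ S T : Finset (Fin 9), S.card = 5 ∧ T.card = 5 ∧ S ∩ T = {i} ∧
      (y = fun j => if j ∈ S then 1 / 3 else -(1 / 6)) ∧
      (z = fun j => if j ∈ T then 1 / 3 else -(1 / 6)) := by
  obtain ⟨hys, hyb⟩ := hy
  obtain ⟨hzs, hzb⟩ := hz
  obtain ⟨p, hp0, hp, hpy⟩ := exists_shift hys hyb
  obtain ⟨q, hq0, hq, hqz⟩ := exists_shift hzs hzb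
  have hconst : ∀ c : ℝ, ∑ _k : Fin 9, c = 9 * c := fun c => by
    rw [Finset.sum_const, Finset.card_univ, nsmul_eq_mul, Fintype.card_fin]
    norm_num
  have hypos : 0 < y i := by
    have h1 : ∑ j, y j ≤ 9 * y i := by
      rw [← hconst]
      exact Finset.sum_le_sum fun j _ => hyi j
    linarith
  have hzpos : 0 < z i := by
    have h1 : ∑ j, z j ≤ 9 * z i := by
      rw [← hconst]
      exact Finset.sum_le_sum fun j _ => hzi j
    linarith
  set b : Fin 9 → ℝ := fun j => y j + p with hb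
  set c : Fin 9 → ℝ := fun j => z j + q with hc
  have hbs : ∑ j, b j = 1 + 9 * p := by
    simp only [hb, Finset.sum_add_distrib, hconst, hys]
  have hcs : ∑ j, c j = 1 + 9 * q := by
    simp only [hc, Finset.sum_add_distrib, hconst, hzs]
  have hb2 : ∑ j, b j ^ 2 ≤ 1 + 9 * p ^ 2 := by
    have : ∑ j, b j ^ 2 = ∑ j, y j ^ 2 + 2 * p * ∑ j, y j + 9 * p ^ 2 := by
      rw [Finset.mul_sum, ← hconst, ← Finset.sum_add_distrib, ← Finset.sum_add_distrib]
      exact Finset.sum_congr rfl fun j _ => by simp only [hb]; ring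
    rw [this, hys]
    linarith
  have hc2 : ∑ j, c j ^ 2 ≤ 1 + 9 * q ^ 2 := by
    have : ∑ j, c j ^ 2 = ∑ j, z j ^ 2 + 2 * q * ∑ j, z j + 9 * q ^ 2 := by
      rw [Finset.mul_sum, ← hconst, ← Finset.sum_add_distrib, ← Finset.sum_add_distrib]
      exact Finset.sum_congr rfl fun j _ => by simp only [hc]; ring
    rw [this, hzs]
    linarith
  have hbc : ∑ j, b j * c j ≤ 9 * p * q := by
    have h1 := sum_shift (p := p) (q := q) hys hzs
    rw [sum_sub_sq, h1, Fintype.card_fin] at h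
    push_cast at h
    simp only [hb, hc]
    linarith
  have hbi : ∀ j, b j ≤ b i := fun j => by simp only [hb]; linarith [hyi j]
  have hci : ∀ j, c j ≤ c i := fun j => by simp only [hc]; linarith [hzi j]
  have hbi0 : 0 < b i := by simp only [hb]; linarith
  have hci0 : 0 < c i := by simp only [hc]; linarith
  have hbi1 : b i ≤ 1 := by
    have h1 : y i ^ 2 ≤ 1 - 2 * p := le_trans
      (Finset.single_le_sum (f := fun k => y k ^ 2) (fun k _ => sq_nonneg _) (Finset.mem_univ i))
      hpy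
    simp only [hb]
    by_contra h
    push Not at h
    nlinarith [sq_nonneg p, sq_nonneg (y i)]
  have hci1 : c i ≤ 1 := by
    have h1 : z i ^ 2 ≤ 1 - 2 * q := le_trans
      (Finset.single_le_sum (f := fun k => z k ^ 2) (fun k _ => sq_nonneg _) (Finset.mem_univ i))
      hqz
    simp only [hc]
    by_contra h
    push Not at h
    nlinarith [sq_nonneg q, sq_nonneg (z i)]
  have hprod : ∀ j, 0 ≤ b j * c j := fun j => mul_nonneg (hp j) (hq j)
  have E0 : b i * c i ≤ 9 * p * q := by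
    refine le_trans ?_ hbc
    exact Finset.single_le_sum (f := fun k => b k * c k) (fun k _ => hprod k) (Finset.mem_univ i)
  have h1nn : ∀ j, 0 ≤ (b i - b j) * (c i - c j) :=
    fun j => mul_nonneg (by linarith [hbi j]) (by linarith [hci j])
  have e1 : ∑ j, (b i - b j) * (c i - c j)
      = 9 * (b i * c i) - b i * (1 + 9 * q) - c i * (1 + 9 * p) + ∑ j, b j * c j := by
    rw [← hbs, ← hcs, Finset.mul_sum, Finset.mul_sum, ← hconst, ← Finset.sum_sub_distrib,
      ← Finset.sum_sub_distrib, ← Finset.sum_add_distrib]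
    exact Finset.sum_congr rfl fun j _ => by ring
  have E1 : b i + c i ≤ 9 * (b i - p) * (c i - q) := by
    have h1 : 0 ≤ ∑ j, (b i - b j) * (c i - c j) := Finset.sum_nonneg fun j _ => h1nn j
    rw [e1] at h1
    nlinarith
  have E2 : 9 * (b i + c i - (p + q)) ^ 2 ≤ 12 + 4 * (b i + c i) - 36 * (p + q) := by
    have h2 : (∑ j ∈ Finset.univ.erase i, (b j + c j)) ^ 2
        ≤ ((Finset.univ.erase i).card : ℝ) * ∑ j ∈ Finset.univ.erase i, (b j + c j) ^ 2 :=
      sq_sum_le_card_mul_sum_sq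
    have h3 : ∑ j ∈ Finset.univ.erase i, (b j + c j) = 2 + 9 * (p + q) - (b i + c i) := by
      have := Finset.add_sum_erase Finset.univ (fun j => b j + c j) (Finset.mem_univ i)
      simp only [Finset.sum_add_distrib, hbs, hcs] at this ⊢
      linarith
    have h4 : ∑ j ∈ Finset.univ.erase i, (b j + c j) ^ 2
        = ∑ j, b j ^ 2 + ∑ j, c j ^ 2 + 2 * ∑ j, b j * c j - (b i + c i) ^ 2 := by
      have h5 := Finset.add_sum_erase Finset.univ (fun j => (b j + c j) ^ 2) (Finset.mem_univ i)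
      have h6 : ∑ j, (b j + c j) ^ 2 = ∑ j, b j ^ 2 + ∑ j, c j ^ 2 + 2 * ∑ j, b j * c j := by
        rw [Finset.mul_sum, ← Finset.sum_add_distrib, ← Finset.sum_add_distrib]
        exact Finset.sum_congr rfl fun j _ => by ring
      linarith
    have h5 : ((Finset.univ.erase i).card : ℝ) = 8 := by
      rw [Finset.card_erase_of_mem (Finset.mem_univ i), Finset.card_univ, Fintype.card_fin]
      norm_num
    rw [h3, h4, h5] at h2
    nlinarith
  obtain ⟨hbv, hcv, hpv, hqv⟩ := scalar_eq (b i) (c i) p q hbi1 hci1 hp0 hq0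
    (by simp only [hb]; linarith) (by simp only [hc]; linarith) E0 E1 E2
  -- equality in E0
  have z0 : ∀ j, j ≠ i → b j * c j = 0 := by
    have h2 : ∑ j ∈ Finset.univ.erase i, b j * c j ≤ 0 := by
      have := Finset.add_sum_erase Finset.univ (fun j => b j * c j) (Finset.mem_univ i)
      rw [hbv, hcv] at this
      rw [hpv, hqv] at hbc
      linarith
    intro j hj
    have h3 := Finset.single_le_sum (f := fun k => b k * c k) (fun k _ => hprod k)
      (Finset.mem_erase.2 ⟨hj, Finset.mem_univ j⟩)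
    exact le_antisymm (h3.trans h2) (hprod j)
  have z1 : ∀ j, (b i - b j) * (c i - c j) = 0 := by
    have h2 : ∑ j, (b i - b j) * (c i - c j) ≤ 0 := by
      rw [e1, hbv, hcv, hpv, hqv]
      rw [hpv, hqv] at hbc
      linarith
    intro j
    have h3 := Finset.single_le_sum (f := fun k => (b i - b k) * (c i - c k))
      (fun k _ => h1nn k) (Finset.mem_univ j)
    exact le_antisymm (h3.trans h2) (h1nn j)
  have hcase : ∀ j, j ≠ i → (b j = 1 / 2 ∧ c j = 0) ∨ (b j = 0 ∧ c j = 1 / 2) := by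
    intro j hj
    have h1 := z0 j hj
    have h2 := z1 j
    rw [hbv, hcv] at h2
    rcases mul_eq_zero.1 h2 with h3 | h3
    · left
      have hbj : b j = 1 / 2 := by linarith
      rw [hbj] at h1
      exact ⟨hbj, by linarith⟩
    · right
      have hcj : c j = 1 / 2 := by linarith
      rw [hcj] at h1
      exact ⟨by linarith, hcj⟩
  set S : Finset (Fin 9) := Finset.univ.filter fun j => b j = 1 / 2 with hS
  set T : Finset (Fin 9) := Finset.univ.filter fun j => c j = 1 / 2 with hT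
  have hbS : ∀ j, b j = if j ∈ S then 1 / 2 else 0 := by
    intro j
    by_cases hj : j = i
    · subst hj
      rw [if_pos (by simp [hS, hbv]), hbv]
    · rcases hcase j hj with ⟨h1, h2⟩ | ⟨h1, h2⟩
      · rw [if_pos (by simp [hS, h1]), h1]
      · rw [if_neg (by simp [hS, h1]), h1]
  have hcT : ∀ j, c j = if j ∈ T then 1 / 2 else 0 := by
    intro j
    by_cases hj : j = i
    · subst hj
      rw [if_pos (by simp [hT, hcv]), hcv]
    · rcases hcase j hj with ⟨h1, h2⟩ | ⟨h1, h2⟩
      · rw [if_neg (by simp [hT, h2]), h2]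
      · rw [if_pos (by simp [hT, h2]), h2]
  refine ⟨S, T, ?_, ?_, ?_, ?_, ?_⟩
  · have h1 : ∑ j, b j = (S.card : ℝ) * (1 / 2) := by
      rw [Finset.sum_congr rfl fun j _ => hbS j, Finset.sum_ite_mem, Finset.univ_inter,
        Finset.sum_const, nsmul_eq_mul]
    rw [hbs, hpv] at h1
    have h2 : (S.card : ℝ) = 5 := by linarith
    exact_mod_cast h2
  · have h1 : ∑ j, c j = (T.card : ℝ) * (1 / 2) := by
      rw [Finset.sum_congr rfl fun j _ => hcT j, Finset.sum_ite_mem, Finset.univ_inter,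
        Finset.sum_const, nsmul_eq_mul]
    rw [hcs, hqv] at h1
    have h2 : (T.card : ℝ) = 5 := by linarith
    exact_mod_cast h2
  · ext j
    rw [Finset.mem_inter, Finset.mem_singleton]
    constructor
    · rintro ⟨h1, h2⟩
      by_contra hj
      have h1' : b j = 1 / 2 := (Finset.mem_filter.1 h1).2
      have h2' : c j = 1 / 2 := (Finset.mem_filter.1 h2).2
      have := z0 j hj
      rw [h1', h2'] at this
      norm_num at this
    · rintro rfl
      exact ⟨by simp [hS, hbv], by simp [hT, hcv]⟩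
  · funext j
    have h1 := hbS j
    have h2 : y j = b j - p := by simp only [hb]; ring
    rw [h2, h1, hpv]
    split_ifs <;> norm_num
  · funext j
    have h1 := hcT j
    have h2 : z j = c j - q := by simp only [hc]; ring
    rw [h2, h1, hqv]
    split_ifs <;> norm_num

end Vale.Agent.P052.R2.H958
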